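import Vale.Agent.Lib.P047.Main

/-- For every `n` and every `d ≥ 2`, every Boolean function `f : {-1,1}^n → {-1,1}` of degree at
most `d` satisfies `∑ i, f̂({i}) ≤ (97/100) d`. That is, `M(d) ≤ 0.97 d` for all `d ≥ 2`. -/
theorem Vale.Agent.Results.P047.A_LinearBound.result {n d : ℕ} (hd : 2 ≤ d)
    (f : (Fin n → Bool) → ℝ) (hf : Vale.Agent.Lib.P047.IsBoolean f)
    (hdeg : Vale.Agent.Lib.P047.DegreeLE f d) :
    ∑ i, Vale.Agent.Lib.P047.fourier f {i} ≤ 97 / 100 * (d : ℝ) :=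
  Vale.Agent.Lib.P047.main_bound hf hd hdeg
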