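import Vale.Agent.Lib.P047C.Partition

open Vale.Agent.Lib.P047 Vale.Agent.Lib.P047C in
/-- Two square-root bounds for `∑ |f̂(i)|`.
(1) If `(1 + f) / 2 = ∑ α_j 1_{Q_j}` with `α_j ≥ 0`, the `Q_j` subcubes of codimension at most `w`,
and `f ≤ 1` (for instance `f` Boolean with `{f = 1}` a disjoint union of such subcubes), then
`∑ |f̂(i)| ≤ (2 √w + 1) e^{-1/2}`.
(2) If `∑ α_j 1_{Q_j} = 1` with `α_j ≥ 0` and `f` is constant, equal to `±1`, on each `Q_j` with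
`α_j > 0`, then `∑ |f̂(i)|` is at most the square root of the average codimension
`∑ α_j 2^{-codim Q_j} codim Q_j`. -/
theorem Vale.Agent.Results.P047.B_ConicalBound.result {n : ℕ} {ι : Type} :
    (∀ (w : ℕ) (f : (Fin n → Bool) → ℝ) (s : Finset ι) (P N : ι → Finset (Fin n)) (α : ι → ℝ),
      1 ≤ w → (∀ x, f x ≤ 1) → (∀ j ∈ s, 0 ≤ α j) → (∀ j ∈ s, Disjoint (P j) (N j)) →
      (∀ j ∈ s, (P j).card + (N j).card ≤ w) →
      (∀ x, (1 + f x) / 2 = ∑ j ∈ s, α j * cube (P j) (N j) x) →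
      ∑ i, |fourier f {i}| ≤ (2 * √(w : ℝ) + 1) * Real.exp (-(1 / 2))) ∧
    (∀ (f : (Fin n → Bool) → ℝ) (s : Finset ι) (P N : ι → Finset (Fin n)) (α c : ι → ℝ),
      (∀ j ∈ s, 0 ≤ α j) → (∀ j ∈ s, Disjoint (P j) (N j)) →
      (∀ x, ∑ j ∈ s, α j * cube (P j) (N j) x = 1) →
      (∀ j ∈ s, c j = 1 ∨ c j = -1) →
      (∀ j ∈ s, 0 < α j → ∀ x, cube (P j) (N j) x = 1 → f x = c j) →
      ∑ i, |fourier f {i}| ≤
        √(∑ j ∈ s, α j * (1 / 2) ^ ((P j).card + (N j).card) *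
          ((P j).card + (N j).card : ℝ))) :=
  ⟨fun _ _ s P N α hw hf hα hd hc hrep => conical_bound hw hf s P N α hα hd hc hrep,
   fun _ s P N α c hα hd hrep hc hmono => partition_bound s P N α c hα hd hrep hc hmono⟩
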