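import Vale.Agent.Lib.P047.DegFour

open Vale.Agent.Lib.P047

/-- The exact value `M(4) = 7/4`: every Boolean function on `{-1,1}^n` (any `n`) of degree at most
four satisfies `∑ i, f̂({i}) ≤ 7/4`, and the value is attained (on seven variables). -/
theorem Vale.Agent.Results.P047.C_DegreeFour.result :
    (∀ (n : ℕ) (f : (Fin n → Bool) → ℝ), IsBoolean f → DegreeLE f 4 →
      ∑ i, fourier f {i} ≤ 7 / 4) ∧
    ∃ (n : ℕ) (f : (Fin n → Bool) → ℝ), IsBoolean f ∧ DegreeLE f 4 ∧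
      ∑ i, fourier f {i} = 7 / 4 :=
  ⟨fun _ f hf hd => Vale.Agent.Lib.P047.DegFour.upper f hf hd, Vale.Agent.Lib.P047.DegFour.attained⟩
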